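import Mathlib

/-!
# A field obstruction for complete sets of mutually unbiased bases, `d = 2 mod 4`
-/

open Finset Matrix ComplexConjugate

noncomputable section

namespace Vale.Agent.Results.P355.CompleteSetField

variable {d : ℕ}

/-- The overlap sum of two projectors. -/
theorem overlap (u w : Fin d → ℂ) :
    ∑ p : Fin d × Fin d, (u p.1 * conj (u p.2)) * conj (w p.1 * conj (w p.2)) =
      ((Complex.normSq (∑ i, conj (w i) * u i) : ℝ) : ℂ) := by
  rw [← Complex.mul_conj, map_sum, Finset.sum_mul_sum, Fintype.sum_prod_type]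
  refine Finset.sum_congr rfl fun a _ => Finset.sum_congr rfl fun b _ => ?_
  simp only [map_mul, Complex.conj_conj]
  ring

/-- An involution has sign `(-1)` to the power of half its support. -/
theorem sign_invol {α : Type*} [Fintype α] [DecidableEq α] (σ : Equiv.Perm α) (hσ : σ * σ = 1)
    {m : ℕ} (hm : σ.support.card = 2 * m) : Equiv.Perm.sign σ = (-1) ^ m := by
  have h2 : ∀ n ∈ σ.cycleType, n = 2 := by
    intro n hn
    have h1 := Equiv.Perm.dvd_of_mem_cycleType hn
    have h3 : orderOf σ ∣ 2 := orderOf_dvd_of_pow_eq_one (by rw [sq, hσ])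
    have := Nat.le_of_dvd (by norm_num) (h1.trans h3)
    have := Equiv.Perm.two_le_of_mem_cycleType hn
    omega
  have hrep : σ.cycleType = Multiset.replicate σ.cycleType.card 2 :=
    Multiset.eq_replicate_card.2 h2
  have hcard : σ.cycleType.card = m := by
    have := congrArg Multiset.sum hrep
    rw [Equiv.Perm.sum_cycleType, Multiset.sum_replicate, hm, smul_eq_mul] at this
    omega
  rw [Equiv.Perm.sign_of_cycleType, Equiv.Perm.sum_cycleType, hm, hcard, pow_add, pow_mul]
  simp

theorem sign_swap_prod (k : ℕ) (hk : d = 4 * k + 2) :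
    Equiv.Perm.sign (Equiv.prodComm (Fin d) (Fin d)) = -1 := by
  set σ : Equiv.Perm (Fin d × Fin d) := Equiv.prodComm (Fin d) (Fin d) with hσ
  have hinv : σ * σ = 1 := Equiv.ext fun p => by simp [hσ]
  have hfix : (univ.filter fun p : Fin d × Fin d => p.1 = p.2).card = d := by
    rw [show (univ.filter fun p : Fin d × Fin d => p.1 = p.2) =
        (univ : Finset (Fin d)).diag from ?_]
    · simp
    · ext p; simp [Finset.mem_diag]
  have hsupp : σ.support = univ.filter fun p : Fin d × Fin d => ¬p.1 = p.2 := by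
    ext ⟨a, b⟩
    simp only [Equiv.Perm.mem_support, hσ, Equiv.prodComm_apply, Prod.swap_prod_mk, ne_eq,
      Prod.mk.injEq, Finset.mem_filter, Finset.mem_univ, true_and]
    exact ⟨fun h e => h ⟨e.symm, e⟩, fun h e => h e.2⟩
  have hcard := Finset.card_filter_add_card_filter_not (s := (univ : Finset (Fin d × Fin d)))
    (fun p => p.1 = p.2)
  rw [hfix, ← hsupp, Finset.card_univ, Fintype.card_prod, Fintype.card_fin] at hcard
  have hm : σ.support.card = 2 * (2 * (4 * k ^ 2 + 3 * k) + 1) := by
    subst hk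
    linarith [show (4 * k + 2) * (4 * k + 2) =
      (4 * k + 2) + 2 * (2 * (4 * k ^ 2 + 3 * k) + 1) by ring]
  rw [sign_invol σ hinv hm, pow_succ, pow_mul]
  simp

/-- **Field obstruction.** If `d ≡ 2 (mod 4)` and `d + 1` pairwise mutually unbiased orthonormal
bases of `ℂ^d` have, in some orthonormal coordinates, all entries of their rank-one projectors in
a subfield `K` of `ℂ`, then `i ∈ K`. -/
theorem field_has_I (k d : ℕ) (hd : d = 4 * k + 2) (v : Fin (d + 1) → Fin d → Fin d → ℂ)
    (horth : ∀ B r s, ∑ i, conj (v B r i) * v B s i = if r = s then 1 else 0)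
    (hmub : ∀ B C r s, B ≠ C →
      Complex.normSq (∑ i, conj (v B r i) * v C s i) = 1 / (d : ℝ))
    (K : Subfield ℂ) (hK : ∀ B r a b, v B r a * conj (v B r b) ∈ K) : Complex.I ∈ K := by
  obtain ⟨n, rfl⟩ : ∃ n, d = n + 1 := ⟨4 * k + 1, by omega⟩
  set D : ℂ := ((n + 1 : ℕ) : ℂ) with hD
  have hD0 : D ≠ 0 := by simp [hD, Nat.cast_add_one_ne_zero]
  -- all vectors of the first basis, and all but one of each other basis
  let row : Fin (n + 1) ⊕ (Fin n × Fin (n + 1)) → Fin (n + 1) → ℂ :=
    Sum.elim (fun r => v (Fin.last (n + 1)) r) (fun x => v x.2.castSucc x.1.castSucc)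
  have hcard : Fintype.card (Fin (n + 1) ⊕ (Fin n × Fin (n + 1))) =
      Fintype.card (Fin (n + 1) × Fin (n + 1)) := by
    simp only [Fintype.card_sum, Fintype.card_prod, Fintype.card_fin]; ring
  let e := Fintype.equivOfCardEq hcard
  let P : Matrix (Fin (n + 1) ⊕ (Fin n × Fin (n + 1))) (Fin (n + 1) × Fin (n + 1)) ℂ :=
    Matrix.of fun x p => row x p.1 * conj (row x p.2)
  let M : Matrix (Fin (n + 1) × Fin (n + 1)) (Fin (n + 1) × Fin (n + 1)) ℂ :=
    P.submatrix e.symm id
  have hval : ∀ B C r s, ∑ p : Fin (n + 1) × Fin (n + 1),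
      (v B r p.1 * conj (v B r p.2)) * conj (v C s p.1 * conj (v C s p.2)) =
        if B = C then (if r = s then 1 else 0) else D⁻¹ := by
    intro B C r s
    rw [overlap]
    split_ifs with h1 h2
    · subst h1; subst h2; rw [horth, if_pos rfl]; simp
    · subst h1; rw [horth, if_neg (Ne.symm h2)]; simp
    · rw [hmub C B s r (Ne.symm h1)]; simp [hD]
  -- the Gram matrix of the projectors
  let u : Fin n → ℂ := fun _ => 1
  let J : Matrix (Fin (n + 1)) (Fin n × Fin (n + 1)) ℂ := Matrix.of fun _ _ => D⁻¹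
  let E : Matrix (Fin n × Fin (n + 1)) (Fin n × Fin (n + 1)) ℂ :=
    Matrix.of fun x y => if x.2 = y.2 then (if x.1 = y.1 then 1 else 0) else D⁻¹
  have hG : P * P.conjTranspose = Matrix.fromBlocks 1 J J.transpose E := by
    ext x y
    rw [Matrix.mul_apply]
    simp only [P, Matrix.conjTranspose_apply, Matrix.of_apply, ← starRingEnd_apply]
    rcases x with r | x <;> rcases y with s | y
    · simp only [row, Sum.elim_inl, hval, Matrix.fromBlocks_apply₁₁, Matrix.one_apply, if_true]
    · simp only [row, Sum.elim_inl, Sum.elim_inr, hval, Matrix.fromBlocks_apply₁₂, J,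
        Matrix.of_apply]
      rw [if_neg (Fin.castSucc_lt_last y.2).ne']
    · simp only [row, Sum.elim_inl, Sum.elim_inr, hval, Matrix.fromBlocks_apply₂₁, J,
        Matrix.transpose_apply, Matrix.of_apply]
      rw [if_neg (Fin.castSucc_lt_last x.2).ne]
    · simp only [row, Sum.elim_inr, hval, Matrix.fromBlocks_apply₂₂, E, Matrix.of_apply,
        Fin.castSucc_inj]
  have hS : E - J.transpose * J = Matrix.blockDiagonal (fun _ : Fin (n + 1) =>
      1 + Matrix.replicateCol Unit (fun _ : Fin n => -D⁻¹) * Matrix.replicateRow Unit u) := by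
    ext x y
    simp only [Matrix.sub_apply, Matrix.mul_apply, J, E, Matrix.transpose_apply, Matrix.of_apply,
      Finset.sum_const, Finset.card_univ, Fintype.card_fin, nsmul_eq_mul,
      Matrix.blockDiagonal_apply, Matrix.add_apply, Matrix.one_apply, Matrix.replicateCol_apply,
      Matrix.replicateRow_apply, u, mul_one, Fintype.card_unit, Nat.cast_one, one_mul]
    rw [show ((n + 1 : ℕ) : ℂ) = D from rfl, ← mul_assoc, mul_inv_cancel₀ hD0, one_mul]
    split_ifs <;> ring
  have hdet : (P * P.conjTranspose).det = D⁻¹ ^ (n + 1) := by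
    rw [hG, Matrix.det_fromBlocks_one₁₁, hS, Matrix.det_blockDiagonal, Finset.prod_const,
      Finset.card_univ, Fintype.card_fin, Matrix.det_one_add_replicateCol_mul_replicateRow]
    congr 1
    simp only [dotProduct, u, one_mul, Finset.sum_const, Finset.card_univ, Fintype.card_fin,
      nsmul_eq_mul]
    rw [hD]
    push_cast
    field_simp
    ring
  have hMM : M.det * conj M.det = D⁻¹ ^ (n + 1) := by
    have h : M * M.conjTranspose = (P * P.conjTranspose).submatrix e.symm e.symm := by
      ext a b; rfl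
    have h' := congrArg Matrix.det h
    rw [Matrix.det_mul, Matrix.det_conjTranspose, Matrix.det_submatrix_equiv_self, hdet] at h'
    exact h'
  -- conjugation transposes the two indices, an odd permutation
  have hconj : conj M.det = -M.det := by
    rw [RingHom.map_det]
    have h : (starRingEnd ℂ).mapMatrix M = M.submatrix id (Equiv.prodComm _ _) := by
      ext a p
      simp only [M, P, RingHom.mapMatrix_apply, Matrix.map_apply, Matrix.submatrix_apply,
        Matrix.of_apply, id_eq, Equiv.prodComm_apply, Prod.fst_swap, Prod.snd_swap, map_mul,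
        Complex.conj_conj]
      ring
    rw [h, Matrix.det_permute' , sign_swap_prod k hd]
    simp
  have hmem : M.det ∈ K := by
    rw [Matrix.det_apply]
    refine sum_mem fun σ _ => ?_
    rw [Units.smul_def]
    refine zsmul_mem (prod_mem fun i _ => ?_) _
    simp only [M, P, Matrix.submatrix_apply, Matrix.of_apply, row]
    rcases e.symm (σ i) with r | x
    · exact hK _ _ _ _
    · exact hK _ _ _ _
  set c : ℂ := D⁻¹ ^ (2 * k + 1) with hc
  have hcK : c ∈ K := pow_mem (inv_mem (natCast_mem K _)) _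
  have hc0 : c ≠ 0 := pow_ne_zero _ (inv_ne_zero hD0)
  have hsq : M.det ^ 2 = (Complex.I * c) ^ 2 := by
    have : n + 1 = (2 * k + 1) * 2 := by omega
    have hp : D⁻¹ ^ (n + 1) = c ^ 2 := by rw [hc, ← pow_mul, this]
    rw [hconj, hp] at hMM
    rw [mul_pow, Complex.I_sq, sq]
    linear_combination -hMM
  rcases eq_or_eq_neg_of_sq_eq_sq _ _ hsq with h | h
  · have : Complex.I = M.det / c := by rw [h, mul_div_assoc, div_self hc0, mul_one]
    rw [this]; exact div_mem hmem hcK
  · have : Complex.I = -M.det / c := by rw [h, neg_neg, mul_div_assoc, div_self hc0, mul_one]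
    rw [this]; exact div_mem (neg_mem hmem) hcK


/-! ## The quadratic form obstruction in dimension six -/

/-- All coordinates lie in `K`. -/
def InK (K : Subfield ℂ) {ι : Type*} (w : ι → ℝ) : Prop := ∀ i, ((w i : ℝ) : ℂ) ∈ K

theorem inK_add {K : Subfield ℂ} {ι : Type*} {u w : ι → ℝ} (hu : InK K u) (hw : InK K w) :
    InK K (u + w) := fun i => by simpa using add_mem (hu i) (hw i)

theorem inK_smul {K : Subfield ℂ} {ι : Type*} {u : ι → ℝ} (c : ℝ) (hc : (c : ℂ) ∈ K)
    (hu : InK K u) : InK K (c • u) := fun i => by simpa using mul_mem hc (hu i)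

theorem dot_mem {K : Subfield ℂ} {ι : Type*} [Fintype ι] {u w : ι → ℝ} (hu : InK K u)
    (hw : InK K w) : ((u ⬝ᵥ w : ℝ) : ℂ) ∈ K := by
  rw [dotProduct, Complex.ofReal_sum]
  exact sum_mem fun i _ => by simpa using mul_mem (hu i) (hw i)

/-- Cancellation by reflections. -/
theorem cancel (K : Subfield ℂ) : ∀ (n m : ℕ) (r : Fin m → Fin (n + m) → ℝ) (s : Fin (n + m) → ℝ),
    (∀ j, InK K (r j)) → InK K s → (∀ i j, r i ⬝ᵥ r j = if i = j then 1 else 0) →
    (∀ j, r j ⬝ᵥ s = 0) → ∃ w : Fin n → ℝ, InK K w ∧ w ⬝ᵥ w = s ⬝ᵥ s := by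
  intro n m
  induction m with
  | zero => exact fun r s _ hs _ _ => ⟨s, hs, rfl⟩
  | succ m ih =>
    intro r s hr hs horth hrs
    set e : Fin (n + m + 1) → ℝ := Pi.single (Fin.last _) 1 with he
    set u : Fin (n + m + 1) → ℝ := r (Fin.last m) - e with hu
    set R : (Fin (n + m + 1) → ℝ) → (Fin (n + m + 1) → ℝ) :=
      fun x => x - (2 * (u ⬝ᵥ x) / (u ⬝ᵥ u)) • u with hR
    have heK : InK K e := fun i => by
      by_cases h : i = Fin.last (n + m) <;> simp [he, h, one_mem, zero_mem]
    have huK : InK K u := fun i => by simpa [hu] using sub_mem (hr _ i) (heK i)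
    have hRK : ∀ x, InK K x → InK K (R x) := fun x hx i => by
      have hc : (((2 * (u ⬝ᵥ x) / (u ⬝ᵥ u)) : ℝ) : ℂ) ∈ K := by
        have h2 : (2 : ℂ) ∈ K := by simpa using natCast_mem K 2
        simpa using div_mem (mul_mem h2 (dot_mem huK hx)) (dot_mem huK huK)
      simpa [hR] using sub_mem (hx i) (inK_smul _ hc huK i)
    have hRdot : ∀ x y, R x ⬝ᵥ R y = x ⬝ᵥ y := by
      intro x y
      rcases eq_or_ne (u ⬝ᵥ u) 0 with h | h
      · simp [hR, h]
      · simp only [hR, sub_dotProduct, dotProduct_sub, smul_dotProduct, dotProduct_smul,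
          smul_eq_mul, dotProduct_comm x u]
        field_simp
        ring
    have hRr : R (r (Fin.last m)) = e := by
      rcases eq_or_ne (u ⬝ᵥ u) 0 with h | h
      · have hu0 : u = 0 := dotProduct_self_eq_zero.1 h
        have : r (Fin.last m) = e := sub_eq_zero.1 hu0
        simp [hR, h, this]
      · have h1 : u ⬝ᵥ u = 2 * (u ⬝ᵥ r (Fin.last m)) := by
          have hee : e ⬝ᵥ e = 1 := by simp [he]
          have hrr : r (Fin.last m) ⬝ᵥ r (Fin.last m) = 1 := by simpa using horth (Fin.last m) (Fin.last m)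
          simp only [hu, sub_dotProduct, dotProduct_sub, hee, hrr, dotProduct_comm e]
          ring
        simp only [hR]
        rw [← h1, div_self h, one_smul, hu]
        abel
    have hlast : ∀ x, r (Fin.last m) ⬝ᵥ x = 0 → R x (Fin.last _) = 0 := by
      intro x hx
      have := hRdot (r (Fin.last m)) x
      rw [hRr, hx] at this
      simpa [he] using this
    have hdot : ∀ x y, r (Fin.last m) ⬝ᵥ x = 0 →
        (fun i => R x (Fin.castSucc i)) ⬝ᵥ (fun i => R y (Fin.castSucc i)) = x ⬝ᵥ y := by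
      intro x y hx
      rw [← hRdot x y]
      simp only [dotProduct]
      rw [Fin.sum_univ_castSucc (f := fun i => R x i * R y i), hlast x hx, zero_mul, add_zero]
    obtain ⟨w, hw, hww⟩ := ih (fun j i => R (r j.castSucc) i.castSucc)
      (fun i => R s i.castSucc) (fun j i => hRK _ (hr _) _) (fun i => hRK _ hs _)
      (fun i j => by
        rw [hdot _ _ (by rw [horth]; simp [(Fin.castSucc_lt_last i).ne']), horth]
        simp [Fin.castSucc_inj])
      (fun j => by
        rw [hdot _ _ (by rw [horth]; simp [(Fin.castSucc_lt_last j).ne']), hrs])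
    exact ⟨w, hw, hww.trans (hdot s s (hrs _))⟩

/-- The differences used to split the six vectors of one basis. -/
def helm : Fin 5 → Fin 6 → ℚ :=
  ![![1, -1, 0, 0, 0, 0], ![1, 1, -2, 0, 0, 0], ![1, 1, 1, -3, 0, 0], ![1, 1, 1, 1, -4, 0],
    ![1, 1, 1, 1, 1, -5]]

/-- Rescaling of a pair of vectors of squared length `l (l + 1)` to length `1` or `3`. -/
def pairMat : Fin 5 → Fin 2 → Fin 2 → ℚ :=
  ![![![1/2, 1/2], ![1/2, -1/2]], ![![1/2, 1/2], ![1/2, -1/2]], ![![1/2, 0], ![0, 1/2]],
    ![![1/5, 1/10], ![-1/10, 1/5]], ![![3/10, 1/10], ![-1/10, 3/10]]]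

/-- The squared lengths obtained. -/
def outLen : Fin 5 → ℚ := ![1, 3, 3, 1, 3]

/-- Four vectors of squared length three give four of squared length one. -/
def quadMat : Fin 4 → Fin 4 → ℚ :=
  ![![1/3, 1/3, 1/3, 0], ![1/3, -1/3, 0, 1/3], ![1/3, 0, -1/3, -1/3], ![0, 1/3, -1/3, 1/3]]

theorem pairMat_orth (l : Fin 5) (i j : Fin 2) :
    ((l : ℕ) + 1 : ℚ) * ((l : ℕ) + 2) * ∑ t, pairMat l i t * pairMat l j t =
      if i = j then outLen l else 0 := by
  fin_cases l <;> fin_cases i <;> fin_cases j <;> norm_num [pairMat, outLen, Fin.sum_univ_two]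

theorem quadMat_orth (i j : Fin 4) :
    (3 : ℚ) * ∑ t, quadMat i t * quadMat j t = if i = j then 1 else 0 := by
  fin_cases i <;> fin_cases j <;> simp [quadMat, Fin.sum_univ_four] <;> norm_num

theorem helm_sum (l : Fin 5) : ∑ t, helm l t = 0 := by
  fin_cases l <;> simp [helm, Fin.sum_univ_six] <;> norm_num

theorem helm_orth (l l' : Fin 5) : ∑ t, helm l t * helm l' t =
    if l = l' then ((l : ℕ) + 1 : ℚ) * ((l : ℕ) + 2) else 0 := by
  fin_cases l <;> fin_cases l' <;> simp [helm, Fin.sum_univ_six] <;> norm_num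

theorem ratCast_mem' (K : Subfield ℂ) (q : ℚ) : (((q : ℝ)) : ℂ) ∈ K := by
  rw [Complex.ofReal_ratCast]; exact SubfieldClass.ratCast_mem K q

/-- In dimension six, `3` is a sum of two squares of real elements of the field. -/
theorem three_two_squares (v : Fin 7 → Fin 6 → Fin 6 → ℂ)
    (horth : ∀ B r s, ∑ i, conj (v B r i) * v B s i = if r = s then 1 else 0)
    (hmub : ∀ B C r s, B ≠ C → Complex.normSq (∑ i, conj (v B r i) * v C s i) = 1 / 6)
    (K : Subfield ℂ) (hK : ∀ B r a b, v B r a * conj (v B r b) ∈ K) (hI : Complex.I ∈ K) :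
    ∃ a b : ℝ, (a : ℂ) ∈ K ∧ (b : ℂ) ∈ K ∧ a ^ 2 + b ^ 2 = 3 := by
  -- real coordinates of a projector
  let c : Fin 7 → Fin 6 → Fin 6 × Fin 6 → ℝ := fun B r p =>
    (v B r p.1 * conj (v B r p.2)).re + (v B r p.1 * conj (v B r p.2)).im
  have hcK : ∀ B r, InK K (c B r) := by
    intro B r p
    set z := v B r p.1 * conj (v B r p.2) with hz
    set z' := v B r p.2 * conj (v B r p.1) with hz'
    have e : z' = conj z := by simp [hz, hz', mul_comm]
    have h1 : ((z.re + z.im : ℝ) : ℂ) = (z + z') / 2 + (z - z') / (2 * Complex.I) := by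
      rw [e, Complex.add_conj, Complex.sub_conj]
      push_cast
      field_simp
    have h2 : (2 : ℂ) ∈ K := by simpa using natCast_mem K 2
    show ((z.re + z.im : ℝ) : ℂ) ∈ K
    rw [h1]
    exact add_mem (div_mem (add_mem (hK _ _ _ _) (hK _ _ _ _)) h2)
      (div_mem (sub_mem (hK _ _ _ _) (hK _ _ _ _)) (mul_mem h2 hI))
  have hcc : ∀ B C r s, c B r ⬝ᵥ c C s = if B = C then (if r = s then 1 else 0) else 1 / 6 := by
    intro B C r s
    have h : c B r ⬝ᵥ c C s = Complex.normSq (∑ i, conj (v C s i) * v B r i) := by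
      have hov := congrArg Complex.re (overlap (v B r) (v C s))
      rw [Complex.ofReal_re, Complex.re_sum] at hov
      rw [← hov]
      have hzero : ∑ p : Fin 6 × Fin 6, ((v B r p.1 * conj (v B r p.2)).re *
          (v C s p.1 * conj (v C s p.2)).im + (v B r p.1 * conj (v B r p.2)).im *
          (v C s p.1 * conj (v C s p.2)).re) = 0 := by
        set S := ∑ p : Fin 6 × Fin 6, ((v B r p.1 * conj (v B r p.2)).re *
          (v C s p.1 * conj (v C s p.2)).im + (v B r p.1 * conj (v B r p.2)).im *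
          (v C s p.1 * conj (v C s p.2)).re) with hS
        have hneg : S = -S := by
          conv_lhs => rw [hS, ← Equiv.sum_comp (Equiv.prodComm (Fin 6) (Fin 6))]
          rw [hS, ← Finset.sum_neg_distrib]
          refine Finset.sum_congr rfl fun p _ => ?_
          simp only [Equiv.prodComm_apply, Prod.fst_swap, Prod.snd_swap, Complex.mul_re,
            Complex.mul_im, Complex.conj_re, Complex.conj_im]
          ring
        linarith
      rw [← add_zero (∑ p : Fin 6 × Fin 6, _), ← hzero, ← Finset.sum_add_distrib, dotProduct]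
      refine Finset.sum_congr rfl fun p _ => ?_
      simp only [c, Complex.mul_re, Complex.conj_re, Complex.conj_im, Complex.mul_im]
      ring
    rw [h]
    split_ifs with h1 h2
    · subst h1; subst h2; rw [horth, if_pos rfl]; simp
    · subst h1; rw [horth, if_neg (Ne.symm h2)]; simp
    · exact hmub C B s r (Ne.symm h1)
  -- the split bases
  let w : Fin 6 × Fin 5 → Fin 6 × Fin 6 → ℝ := fun x => ∑ t, (helm x.2 t : ℝ) • c x.1.castSucc t
  have hw : ∀ x y, w x ⬝ᵥ w y =
      if x = y then ((((x.2 : ℕ) + 1) * ((x.2 : ℕ) + 2) : ℚ) : ℝ) else 0 := by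
    intro x y
    simp only [w, sum_dotProduct, dotProduct_sum, smul_dotProduct, dotProduct_smul, hcc,
      Fin.castSucc_inj, smul_eq_mul]
    by_cases h1 : x.1 = y.1
    · simp only [if_pos h1, mul_ite, mul_one, mul_zero, Finset.sum_ite_eq, Finset.sum_ite_eq',
        Finset.mem_univ, if_true]
      have := congrArg (fun q : ℚ => (q : ℝ)) (helm_orth x.2 y.2)
      simp only [Rat.cast_sum, Rat.cast_mul] at this
      rcases eq_or_ne x.2 y.2 with h2 | h2
      · rw [if_pos (Prod.ext h1 h2)]
        rw [if_pos h2] at this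
        simpa [mul_comm] using this
      · rw [if_neg (fun h => h2 (congrArg Prod.snd h))]
        rw [if_neg h2] at this
        simpa [mul_comm] using this
    · rw [if_neg (fun h => h1 (congrArg Prod.fst h))]
      simp only [if_neg h1]
      have := congrArg (fun q : ℚ => (q : ℝ)) (helm_sum x.2)
      simp only [Rat.cast_sum, Rat.cast_zero] at this
      simp [← Finset.sum_mul, this]
  have hwK : ∀ x, InK K (w x) := fun x p => by
    simp only [w, Finset.sum_apply, Complex.ofReal_sum]
    exact sum_mem fun t _ => inK_smul _ (ratCast_mem' K _) (hcK _ _) p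
  have hwc : ∀ x r, w x ⬝ᵥ c (Fin.last 6) r = 0 := fun x r => by
    simp only [w, sum_dotProduct, smul_dotProduct, hcc, smul_eq_mul,
      if_neg (Fin.castSucc_lt_last x.1).ne, ← Finset.sum_mul]
    have := congrArg (fun q : ℚ => (q : ℝ)) (helm_sum x.2)
    simp only [Rat.cast_sum, Rat.cast_zero] at this
    rw [this, zero_mul]
  -- pairs of bases
  let two : Fin 3 → Fin 2 → Fin 6 := fun g t => ⟨2 * g.1 + t.1, by omega⟩
  let z : Fin 3 × Fin 5 → Fin 2 → Fin 6 × Fin 6 → ℝ := fun x i =>
    ∑ t, (pairMat x.2 i t : ℝ) • w (two x.1 t, x.2)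
  have htwo : ∀ g g' t t', two g t = two g' t' ↔ g = g' ∧ t = t' := by decide
  have hz : ∀ x y i j, z x i ⬝ᵥ z y j = if x = y ∧ i = j then (outLen x.2 : ℝ) else 0 := by
    intro x y i j
    simp only [z, sum_dotProduct, dotProduct_sum, smul_dotProduct, dotProduct_smul, hw, smul_eq_mul,
      Prod.mk.injEq, htwo]
    by_cases h : x = y
    · subst h
      simp only [true_and, and_true, mul_ite, mul_zero, Finset.sum_ite_eq, Finset.mem_univ, if_true]
      have := congrArg (fun q : ℚ => (q : ℝ)) (pairMat_orth x.2 i j)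
      simp only [Rat.cast_mul, Rat.cast_sum] at this
      rw [Finset.mul_sum] at this
      rcases eq_or_ne i j with rfl | hij
      · rw [if_pos rfl] at this ⊢
        refine Eq.trans (Finset.sum_congr rfl fun t _ => ?_) this; rw [Finset.sum_ite_eq', if_pos (Finset.mem_univ t)]; push_cast; ring
      · rw [if_neg hij] at this ⊢
        simp only [Rat.cast_zero] at this
        refine Eq.trans (Finset.sum_congr rfl fun t _ => ?_) this; rw [Finset.sum_ite_eq', if_pos (Finset.mem_univ t)]; push_cast; ring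
    · rw [if_neg (fun h' => h h'.1)]
      refine Finset.sum_eq_zero fun t _ => mul_eq_zero_of_right _ (Finset.sum_eq_zero fun t' _ => ?_)
      rw [if_neg (fun h' => h (Prod.ext h'.1.1 h'.2))]
      ring
  have hzK : ∀ x i, InK K (z x i) := fun x i p => by
    simp only [z, Finset.sum_apply, Complex.ofReal_sum]
    exact sum_mem fun t _ => inK_smul _ (ratCast_mem' K _) (hwK _) p
  have hzc : ∀ x i r, z x i ⬝ᵥ c (Fin.last 6) r = 0 := fun x i r => by
    simp only [z, sum_dotProduct, smul_dotProduct, hwc, smul_zero, Finset.sum_const_zero]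
  -- eighteen vectors of length three
  let thr : Fin 18 → (Fin 3 × Fin 5) × Fin 2 := fun j =>
    ((⟨j.1 / 6, by omega⟩, ![1, 2, 4] ⟨j.1 / 2 % 3, by omega⟩), ⟨j.1 % 2, by omega⟩)
  let one : Fin 12 → (Fin 3 × Fin 5) × Fin 2 := fun j =>
    ((⟨j.1 / 4, by omega⟩, ![0, 3] ⟨j.1 / 2 % 2, by omega⟩), ⟨j.1 % 2, by omega⟩)
  have hthr : ∀ i j, thr i = thr j → i = j := by decide
  have hone : ∀ i j, one i = one j → i = j := by decide
  have hne : ∀ i j, one i ≠ thr j := by decide
  have hout3 : ∀ j, outLen (thr j).1.2 = 3 := by decide +kernel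
  have hout1 : ∀ j, outLen (one j).1.2 = 1 := by decide +kernel
  let zz : (Fin 3 × Fin 5) × Fin 2 → Fin 6 × Fin 6 → ℝ := fun q => z q.1 q.2
  have hzz : ∀ p q, zz p ⬝ᵥ zz q = if p = q then (outLen p.1.2 : ℝ) else 0 := fun p q => by
    simp only [zz, hz, Prod.ext_iff]
  -- four groups of four of them become unit vectors
  let grp : Fin 4 → Fin 4 → Fin 18 := fun g t => ⟨4 * g.1 + t.1, by omega⟩
  have hgrp : ∀ g g' t t', grp g t = grp g' t' ↔ g = g' ∧ t = t' := by decide
  have hgrpne : ∀ g t, grp g t ≠ 16 := by decide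
  have hone' : ∀ i, one i ≠ thr 16 := fun i => hne i 16
  let q16 : Fin 4 × Fin 4 → Fin 6 × Fin 6 → ℝ := fun x =>
    ∑ t, (quadMat x.2 t : ℝ) • zz (thr (grp x.1 t))
  have hq16 : ∀ x y, q16 x ⬝ᵥ q16 y = if x = y then 1 else 0 := by
    intro x y
    simp only [q16, sum_dotProduct, dotProduct_sum, smul_dotProduct, dotProduct_smul, hzz,
      smul_eq_mul, hout3, Function.Injective.eq_iff (fun a b h => hthr a b h), hgrp]
    by_cases h : x.1 = y.1
    · simp only [h, true_and, mul_ite, mul_zero, Finset.sum_ite_eq, Finset.mem_univ, if_true]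
      have := congrArg (fun q : ℚ => (q : ℝ)) (quadMat_orth x.2 y.2)
      simp only [Rat.cast_mul, Rat.cast_sum] at this
      rw [Finset.mul_sum] at this
      rcases eq_or_ne x.2 y.2 with h2 | h2
      · rw [if_pos h2] at this
        rw [if_pos (Prod.ext h h2)]
        simp only [Rat.cast_one] at this
        refine Eq.trans (Finset.sum_congr rfl fun t _ => ?_) this; rw [Finset.sum_ite_eq', if_pos (Finset.mem_univ t)]; push_cast; ring
      · rw [if_neg h2] at this
        rw [if_neg (fun e => h2 (congrArg Prod.snd e))]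
        simp only [Rat.cast_zero] at this
        refine Eq.trans (Finset.sum_congr rfl fun t _ => ?_) this; rw [Finset.sum_ite_eq', if_pos (Finset.mem_univ t)]; push_cast; ring
    · rw [if_neg (fun e => h (congrArg Prod.fst e))]
      refine Finset.sum_eq_zero fun t _ => mul_eq_zero_of_right _ (Finset.sum_eq_zero fun t' _ => ?_)
      rw [if_neg (fun h' => h h'.1)]
      ring
  have hq16K : ∀ x, InK K (q16 x) := fun x p => by
    simp only [q16, Finset.sum_apply, Complex.ofReal_sum]
    exact sum_mem fun t _ => inK_smul _ (ratCast_mem' K _) (hzK _ _) p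
  -- the thirty-four unit vectors, and one more of squared length three
  let U : (Fin 6 ⊕ Fin 12) ⊕ (Fin 4 × Fin 4) → Fin 6 × Fin 6 → ℝ :=
    Sum.elim (Sum.elim (fun r => c (Fin.last 6) r) fun j => zz (one j)) q16
  have hUK : ∀ x, InK K (U x) := by
    rintro ((r | j) | x)
    · exact hcK _ _
    · exact hzK _ _
    · exact hq16K _
  have hoq : ∀ j x, zz (one j) ⬝ᵥ q16 x = 0 := fun j x => by
    simp only [q16, dotProduct_sum, dotProduct_smul, hzz, if_neg (hne _ _), smul_zero,
      Finset.sum_const_zero]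
  have hcq : ∀ r x, c (Fin.last 6) r ⬝ᵥ q16 x = 0 := fun r x => by
    rw [dotProduct_comm]
    simp only [q16, zz, sum_dotProduct, smul_dotProduct, hzc, smul_zero, Finset.sum_const_zero]
  have hU : ∀ x y, U x ⬝ᵥ U y = if x = y then 1 else 0 := by
    rintro ((r | j) | x) ((s | j') | y) <;> simp only [U, Sum.elim_inl, Sum.elim_inr, Sum.inl.injEq,
      Sum.inr.injEq, reduceCtorEq, if_false]
    · rw [hcc, if_pos rfl]
    · rw [dotProduct_comm]; exact hzc _ _ _
    · exact hcq _ _
    · exact hzc _ _ _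
    · rw [hzz, hout1, Rat.cast_one]
      simp only [Function.Injective.eq_iff (fun a b h => hone a b h)]
    · exact hoq _ _
    · rw [dotProduct_comm]; exact hcq _ _
    · rw [dotProduct_comm]; exact hoq _ _
    · exact hq16 _ _
  set s3 := zz (thr 16) with hs3
  have hUs : ∀ x, U x ⬝ᵥ s3 = 0 := by
    rintro ((r | j) | x) <;> simp only [U, Sum.elim_inl, Sum.elim_inr, hs3]
    · rw [dotProduct_comm]; exact hzc _ _ _
    · rw [hzz, if_neg (hne _ _)]
    · simp only [q16, sum_dotProduct, smul_dotProduct, hzz,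
        if_neg (fun h => hgrpne x.1 _ (hthr _ _ h)), smul_zero, Finset.sum_const_zero]
  let ec : Fin (2 + 34) ≃ Fin 6 × Fin 6 := (finCongr (show 2 + 34 = 6 * 6 by norm_num)).trans finProdFinEquiv.symm
  let eU : Fin 34 ≃ (Fin 6 ⊕ Fin 12) ⊕ (Fin 4 × Fin 4) :=
    (Fintype.equivOfCardEq (by simp [Fintype.card_sum, Fintype.card_prod])).symm
  obtain ⟨p, hp, hpp⟩ := cancel K 2 34 (fun j i => U (eU j) (ec i)) (fun i => s3 (ec i))
    (fun j i => hUK _ _) (fun i => hzK _ _ _)
    (fun i j => by
      show ∑ t, U (eU i) (ec t) * U (eU j) (ec t) = _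
      rw [Equiv.sum_comp ec (fun t => U (eU i) t * U (eU j) t)]
      exact (hU _ _).trans (by simp [eU.injective.eq_iff]))
    (fun j => by
      show ∑ t, U (eU j) (ec t) * s3 (ec t) = _
      rw [Equiv.sum_comp ec (fun t => U (eU j) t * s3 t)]
      exact hUs _)
  refine ⟨p 0, p 1, hp 0, hp 1, ?_⟩
  have h3 : s3 ⬝ᵥ s3 = 3 := by rw [hs3, hzz, if_pos rfl, hout3]; norm_num
  have : ∑ t, s3 (ec t) * s3 (ec t) = 3 := by
    rw [Equiv.sum_comp ec (fun t => s3 t * s3 t)]; exact h3
  simp only [dotProduct, Fin.sum_univ_two] at hpp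
  rw [this] at hpp
  linear_combination hpp

/-- The two obstructions together. -/
theorem result :
    (∀ (k d : ℕ), d = 4 * k + 2 → ∀ (v : Fin (d + 1) → Fin d → Fin d → ℂ),
      (∀ B r s, ∑ i, conj (v B r i) * v B s i = if r = s then 1 else 0) →
      (∀ B C r s, B ≠ C → Complex.normSq (∑ i, conj (v B r i) * v C s i) = 1 / (d : ℝ)) →
      ∀ K : Subfield ℂ, (∀ B r a b, v B r a * conj (v B r b) ∈ K) → Complex.I ∈ K) ∧
    (∀ (v : Fin 7 → Fin 6 → Fin 6 → ℂ),
      (∀ B r s, ∑ i, conj (v B r i) * v B s i = if r = s then 1 else 0) →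
      (∀ B C r s, B ≠ C → Complex.normSq (∑ i, conj (v B r i) * v C s i) = 1 / 6) →
      ∀ K : Subfield ℂ, (∀ B r a b, v B r a * conj (v B r b) ∈ K) →
        ∃ a b : ℝ, (a : ℂ) ∈ K ∧ (b : ℂ) ∈ K ∧ a ^ 2 + b ^ 2 = 3) := by
  refine ⟨fun k d hd v h1 h2 K hK => field_has_I k d hd v h1 h2 K hK, fun v h1 h2 K hK => ?_⟩
  exact three_two_squares v h1 h2 K hK
    (field_has_I 1 6 rfl v h1 (by intro B C r s h; rw [h2 B C r s h]; norm_num) K hK)

end Vale.Agent.Results.P355.CompleteSetField
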